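import Vale.Agent.P281.H303.TV.StatP
import Vale.Agent.P281.H303.UD.Fin
import Vale.Agent.P281.H64.TV.Fin

/-!
# P281: the theorem on Kähler fibrations with fibres immersed in tori, unconditional
-/

open Set
open Vale.Agent.P281 Vale.Agent.P281.H713.TZ.S
open Vale.Agent.P281.H511.Surf (IsFibration IsFibre)
open Vale.Agent.P281.H64.StatV (IsModel NoExc ExcOne Kahler)
open scoped Manifold ContDiff Topology

noncomputable section

namespace Vale.Agent.P281.H303.StatU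

theorem statU {p d : ℕ} (hd : 0 < d) {X Y : Type} [tX : TopologicalSpace X]
    [cX : ChartedSpace (Cm (p + d)) X] [tY : TopologicalSpace Y] [cY : ChartedSpace (Cm p) Y]
    (f : X → Y) (Δ : Set X → ℝ) (hf : IsFibration (Cm (p + d)) (Cm p) f Δ) :
    (Kahler (p + d) X → ForFibres (p + d) p d f Δ (kodF (p + d) p Δ (id : X → X) f) True) ∧
      KapLe (Cm (p + d)) (Cm p) f Δ (kodF (p + d) p Δ (id : X → X) f) ∧
    ∀ (X₁ Y₁ : Type) [TopologicalSpace X₁] [ChartedSpace (Cm (p + d)) X₁]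
      [TopologicalSpace Y₁] [ChartedSpace (Cm p) Y₁] (f₁ : X₁ → Y₁) (Δ₁ : Set X₁ → ℝ),
      IsModel (p + d) p f₁ Δ₁ f Δ →
        (Kahler (p + d) X₁ →
          ForFibres (p + d) p d f Δ (kodF (p + d) p Δ₁ (id : X₁ → X₁) f₁) False ∧
          KapLe (Cm (p + d)) (Cm p) f₁ Δ₁ (kodF (p + d) p Δ₁ (id : X₁ → X₁) f₁)) ∧
        (NoExc (p + d) p f₁ ∨ ExcOne (p + d) p f₁ Δ₁ →
          (Kahler (p + d) X → ForFibres (p + d) p d f Δ
            (kap (Cm (p + d)) (Cm p) ⟨X, Y, tX, tY, cX, cY, f, Δ⟩) True) ∧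
          (Kahler (p + d) X₁ → ForFibres (p + d) p d f Δ
            (kap (Cm (p + d)) (Cm p) ⟨X, Y, tX, tY, cX, cY, f, Δ⟩) False)) :=
  stat (fun p d X Y _ _ _ _ f Δ hd hf hw => H303.UD.tuv p d X Y f Δ hd hf hw)
    H64.StatV.step hd f Δ hf

end Vale.Agent.P281.H303.StatU
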