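import Vale.Agent.P281.H64.TV.Stat

/-!
# P281: definitions for the statement on Kähler fibrations with fibres immersed in tori
-/

open Set
open Vale.Agent.P281 Vale.Agent.P281.H713.TZ.S
open Vale.Agent.P281.H511.Surf (IsFibration IsFibre)
open Vale.Agent.P281.H64.Thin (IsThinSet)
open Vale.Agent.P281.H64.StatV (IsCover GaussRank IsGen CovRank)
open scoped Manifold ContDiff Topology

noncomputable section

namespace Vale.Agent.P281.H303.StatU

/-- Some finite étale covering `F'` of `F` has a Gauss map of rank at least `κ(F, K_F + Δ|F)` (for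
instance of rank `d`), or is immersed in a complex torus, if `T` holds or `F` is disjoint from `Δ`. -/
def Cond (n d : ℕ) {X F : Type} [TopologicalSpace X] [ChartedSpace (Cm n) X]
    [TopologicalSpace F] [ChartedSpace (Cm d) F] (i : F → X) (Δ : Set X → ℝ) (T : Prop) : Prop :=
  ∃ (F' : Type) (_ : TopologicalSpace F') (_ : ChartedSpace (Cm d) F') (π : F' → F),
    IsCover d π ∧ (GaussRank d F' d ∨ (IsGen d F' ∧ (T ∨ ∀ D, Δ D ≠ 0 → ∀ t, i t ∉ D)) ∨
      ∃ r : ℕ, GaussRank d F' r ∧ kodR (Cm n) (Cm d) i Δ ≤ ((r : ℕ∞) : WithBot ℕ∞))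

/-- For the fibres `F` of `f` over the points of `Y` off countably many thin closed sets `H_j`:
`κ(X, K_X + Δ) ≥ r + k` if `CovRank`, and `κ(X, K_X + Δ) ≥ κ(F, K_F + Δ|F) + k` if `Cond`. -/
def ForFibres (n p d : ℕ) {X Y : Type} [TopologicalSpace X] [ChartedSpace (Cm n) X]
    [TopologicalSpace Y] [ChartedSpace (Cm p) Y] (f : X → Y) (Δ : Set X → ℝ)
    (k : WithBot ℕ∞) (T : Prop) : Prop :=
  ∃ H : ℕ → Set Y, (∀ j, IsThinSet (Cm p) (H j)) ∧ ∀ y, (∀ j, y ∉ H j) →
    ∀ (F : Type) [TopologicalSpace F] [T2Space F] [ChartedSpace (Cm d) F] (i : F → X),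
      IsFibre (Cm n) (Cm d) f y i →
      (∀ r : ℕ, CovRank d F r → ((r : ℕ∞) : WithBot ℕ∞) + k ≤ kodX (Cm n) Δ) ∧
      (Cond n d i Δ T → kodR (Cm n) (Cm d) i Δ + k ≤ kodX (Cm n) Δ)

end Vale.Agent.P281.H303.StatU
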