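import Vale.Agent.P281.H303.TV.Stat
import Vale.Agent.P281.H64.TV.StatP

/-!
# P281: the theorem on Kähler fibrations with fibres immersed in tori, in the letters of the statement
-/

open Set
open Vale.Agent.P272.K (Chart IsKahler)
open Vale.Agent.P281 Vale.Agent.P281.H713.TZ.S
open Vale.Agent.P281.H511.Surf (IsFibration IsFibre)
open Vale.Agent.P281.H64.Thin (IsThinSet)
open Vale.Agent.P281.H64.StatV (IsCover GaussRank CovRank IsModel NoExc ExcOne Kahler StepStmt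
  isCover_iff thin_union)
open scoped Manifold ContDiff Topology

noncomputable section

namespace Vale.Agent.P281.H303.StatU

theorem cond_to {n d : ℕ} {X F : Type} [TopologicalSpace X] [ChartedSpace (Cm n) X]
    [TopologicalSpace F] [ChartedSpace (Cm d) F] {i : F → X} {Δ : Set X → ℝ} {T : Prop}
    (h : Cond n d i Δ T) : H303.TE.CondE n d i Δ ∨ (T ∧ ∃ (F' : Type) (_ : TopologicalSpace F')
      (_ : ChartedSpace (Cm d) F') (π : F' → F), H303.TE.IsCover d π ∧ H64.TU.IsGen d F') := by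
  obtain ⟨F', tF, cF, π, h1, h2⟩ := h
  rcases h2 with h2 | ⟨h2, h3 | h3⟩ | h2
  · exact Or.inl ⟨F', tF, cF, π, isCover_iff.1 h1, Or.inl h2⟩
  · exact Or.inr ⟨h3, F', tF, cF, π, isCover_iff.1 h1, h2⟩
  · exact Or.inl ⟨F', tF, cF, π, isCover_iff.1 h1, Or.inr (Or.inl ⟨h2, h3⟩)⟩
  · exact Or.inl ⟨F', tF, cF, π, isCover_iff.1 h1, Or.inr (Or.inr h2)⟩

/-- the first part: `T = False` -/
theorem forFibres {n p d : ℕ} {X Y : Type} [tX : TopologicalSpace X] [cX : ChartedSpace (Cm n) X]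
    [tY : TopologicalSpace Y] [cY : ChartedSpace (Cm p) Y] {f : X → Y} {Δ : Set X → ℝ}
    (hf : IsFibration (Cm n) (Cm p) f Δ) {a : WithBot ℕ∞}
    (h : ∃ H : ℕ → Set Y, (∀ k, IsThinSet (Cm p) (H k)) ∧ ∀ y, (∀ k, y ∉ H k) →
      ∀ (F : Type) [TopologicalSpace F] [T2Space F] [ChartedSpace (Cm d) F] (i : F → X),
        H511.Surf.IsFibre (Cm n) (Cm d) f y i →
        (∀ r : ℕ, H64.TK.GaussRank d F r → ((r : ℕ∞) : WithBot ℕ∞) + a ≤ kodX (Cm n) Δ) ∧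
        (H303.TE.CondE n d i Δ → kodR (Cm n) (Cm d) i Δ + a ≤ kodX (Cm n) Δ)) :
    ForFibres n p d f Δ a False := by
  obtain ⟨H, hH, hmain⟩ := h
  refine ⟨H, hH, fun y hy F _ _ _ i hi => ⟨?_, fun hc => ?_⟩⟩
  · rintro r ⟨F', _, _, π, h1, h2⟩
    have := h1.1
    have := hf.manifold.1
    exact (hmain y hy F' (fun t => i (π t)) ((isCover_iff.1 h1).fibre hi)).1 r h2
  · rcases cond_to hc with hc | ⟨hc, -⟩
    · exact (hmain y hy F i hi).2 hc
    · exact hc.elim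

/-- the second part: `T = True` -/
theorem forFibresT {n p d : ℕ} {X Y : Type} [tX : TopologicalSpace X] [cX : ChartedSpace (Cm n) X]
    [tY : TopologicalSpace Y] [cY : ChartedSpace (Cm p) Y] {f : X → Y} {Δ : Set X → ℝ}
    (hf : IsFibration (Cm n) (Cm p) f Δ) {a : WithBot ℕ∞}
    (h : ∃ H : ℕ → Set Y, (∀ k, IsThinSet (Cm p) (H k)) ∧ ∀ y, (∀ k, y ∉ H k) →
      ∀ (F : Type) [TopologicalSpace F] [T2Space F] [ChartedSpace (Cm d) F] (i : F → X),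
        H511.Surf.IsFibre (Cm n) (Cm d) f y i →
        (∀ r : ℕ, H64.TK.GaussRank d F r → ((r : ℕ∞) : WithBot ℕ∞) + a ≤ kodX (Cm n) Δ) ∧
        (H303.TE.CondE n d i Δ → kodR (Cm n) (Cm d) i Δ + a ≤ kodX (Cm n) Δ))
    (h' : ∃ H : ℕ → Set Y, (∀ k, IsThinSet (Cm p) (H k)) ∧ ∀ y, (∀ k, y ∉ H k) →
      ∀ (F : Type) [TopologicalSpace F] [T2Space F] [ChartedSpace (Cm d) F] (i : F → X),
        H511.Surf.IsFibre (Cm n) (Cm d) f y i → H64.TU.IsGen d F →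
        kodR (Cm n) (Cm d) i Δ + a ≤ kodX (Cm n) Δ) :
    ForFibres n p d f Δ a True := by
  obtain ⟨H, hH, hmain⟩ := h
  obtain ⟨H', hH', hmain'⟩ := h'
  obtain ⟨K, hK, hKy⟩ := thin_union hH hH'
  refine ⟨K, hK, fun y hy F _ _ _ i hi => ⟨?_, fun hc => ?_⟩⟩
  · rintro r ⟨F', _, _, π, h1, h2⟩
    have := h1.1
    have := hf.manifold.1
    exact (hmain y (hKy y hy).1 F' (fun t => i (π t)) ((isCover_iff.1 h1).fibre hi)).1 r h2
  · rcases cond_to hc with hc | ⟨-, F', _, _, π, h1, h2⟩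
    · exact (hmain y (hKy y hy).1 F i hi).2 hc
    · have := h1.hausdorff
      have := hf.manifold.1
      have := hi.manifold
      have := hi.connected
      exact (add_le_add (h1.kod Δ) le_rfl).trans
        (hmain' y (hKy y hy).2 F' (fun t => i (π t)) (h1.fibre hi) h2)

theorem ForFibres.mono {n p d : ℕ} {X Y : Type} [TopologicalSpace X] [ChartedSpace (Cm n) X]
    [TopologicalSpace Y] [ChartedSpace (Cm p) Y] {f : X → Y} {Δ : Set X → ℝ} {T : Prop}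
    {a b : WithBot ℕ∞} (h : ForFibres n p d f Δ b T) (hab : a ≤ b) : ForFibres n p d f Δ a T := by
  obtain ⟨H, hH, hmain⟩ := h
  refine ⟨H, hH, fun y hy F _ _ _ i hi => ⟨fun r hr => ?_, fun hc => ?_⟩⟩
  · exact (add_le_add le_rfl hab).trans ((hmain y hy F i hi).1 r hr)
  · exact (add_le_add le_rfl hab).trans ((hmain y hy F i hi).2 hc)

theorem stat (tu : ∀ (p d : ℕ) (X Y : Type) [TopologicalSpace X]
    [ChartedSpace (Cm (p + d)) X] [TopologicalSpace Y] [ChartedSpace (Cm p) Y]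
    (f : X → Y) (Δ : Set X → ℝ), 0 < d → IsFibration (Cm (p + d)) (Cm p) f Δ →
    (∃ w : Chart (p + d) X → Cm (p + d) → Matrix (Fin (p + d)) (Fin (p + d)) ℂ, IsKahler w) →
    ∃ H : ℕ → Set Y, (∀ k, IsThinSet (Cm p) (H k)) ∧ ∀ y, (∀ k, y ∉ H k) →
      ∀ (F : Type) [TopologicalSpace F] [T2Space F] [ChartedSpace (Cm d) F] (i : F → X),
        H511.Surf.IsFibre (Cm (p + d)) (Cm d) f y i → H64.TU.IsGen d F →
        kodR (Cm (p + d)) (Cm d) i Δ + kodF (p + d) p Δ (id : X → X) f ≤ kodX (Cm (p + d)) Δ)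
    (st : StepStmt) {p d : ℕ} (hd : 0 < d) {X Y : Type} [tX : TopologicalSpace X]
    [cX : ChartedSpace (Cm (p + d)) X] [tY : TopologicalSpace Y] [cY : ChartedSpace (Cm p) Y]
    (f : X → Y) (Δ : Set X → ℝ) (hf : IsFibration (Cm (p + d)) (Cm p) f Δ) :
    (Kahler (p + d) X → ForFibres (p + d) p d f Δ (kodF (p + d) p Δ (id : X → X) f) True) ∧
      KapLe (Cm (p + d)) (Cm p) f Δ (kodF (p + d) p Δ (id : X → X) f) ∧
    ∀ (X₁ Y₁ : Type) [TopologicalSpace X₁] [ChartedSpace (Cm (p + d)) X₁]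
      [TopologicalSpace Y₁] [ChartedSpace (Cm p) Y₁] (f₁ : X₁ → Y₁) (Δ₁ : Set X₁ → ℝ),
      IsModel (p + d) p f₁ Δ₁ f Δ →
        (Kahler (p + d) X₁ →
          ForFibres (p + d) p d f Δ (kodF (p + d) p Δ₁ (id : X₁ → X₁) f₁) False ∧
          KapLe (Cm (p + d)) (Cm p) f₁ Δ₁ (kodF (p + d) p Δ₁ (id : X₁ → X₁) f₁)) ∧
        (NoExc (p + d) p f₁ ∨ ExcOne (p + d) p f₁ Δ₁ →
          (Kahler (p + d) X → ForFibres (p + d) p d f Δ
            (kap (Cm (p + d)) (Cm p) ⟨X, Y, tX, tY, cX, cY, f, Δ⟩) True) ∧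
          (Kahler (p + d) X₁ → ForFibres (p + d) p d f Δ
            (kap (Cm (p + d)) (Cm p) ⟨X, Y, tX, tY, cX, cY, f, Δ⟩) False)) := by
  have hk1 : Kahler (p + d) X →
      ForFibres (p + d) p d f Δ (kodF (p + d) p Δ (id : X → X) f) True := fun hw =>
    forFibresT hf (H303.TE.teK f Δ hd hf hw).1 (tu p d X Y f Δ hd hf hw)
  refine ⟨hk1, H364.Gen.kapLe_of H303.UF.crit H383.Gen.compl H364.Gen.compStmt hf, ?_⟩
  rintro X₁ Y₁ _ _ _ _ f₁ Δ₁ ⟨h₁, hs⟩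
  refine ⟨fun hw => ⟨forFibres hf (H303.TE.teM f Δ f₁ Δ₁ hd hf h₁ hs hw),
    H364.Gen.kapLe_of H303.UF.crit H383.Gen.compl H364.Gen.compStmt h₁⟩,
    fun he => ⟨fun hw => ?_, fun hw => forFibres hf (H303.TE.teQ f Δ f₁ Δ₁ hd hf h₁ hs he hw)⟩⟩
  exact (hk1 hw).mono ((H303.TE.kap_le_model h₁ hs he).trans (st _ _ _ _ _ _ _ _ _ _ hf h₁ hs))

end Vale.Agent.P281.H303.StatU
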